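import Crest.Agent.X262.Pg58.Hol
import Crest.Agent.X262.Kah.ClsH
import Crest.Agent.X262.Man.Th
import Crest.Agent.X277.AN.G1Gaga
import Crest.Agent.X277.AN.G1KO

/-!
# X262 / Pg58 (helper58), file Main: `PG` for the de Rham theory

* `finrank_HS` : holomorphic sections of `KB` are the sections of `kP`;
* `finrank_typH`, `pg_of`.
-/

set_option autoImplicit false

open Module Set

noncomputable section

namespace Crest.Agent.X262.Pg58

open Crest.Agent.X277 Crest.Agent.X277.Lef Crest.Agent.X277.AN.G1 Crest.Agent.X277.BD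
  Crest.Agent.X277.BD.Br
open Crest.Agent.R275.Core144 (KB HS)
open Crest.Agent.X262.Kah Crest.Agent.X262.Man Crest.Agent.X262.Coh
open scoped KaehlerDifferential

variable {F : Type} [Field F] [Algebra ℂ F] {P : PModel ℂ F} {n : ℕ}

theorem finrank_HS (X : AnP P n) (b : Basis (Fin n) F Ω[F⁄ℂ]) :
    finrank ℂ (HS (KB X.A) univ) = finrank ℂ (kP P b).Sec := by
  have h1 := X.lbF_koF b 1 0
  have h2 := Sec_k (P := P) b 1
  rw [pow_one, zpow_zero, mul_one] at h1
  rw [one_smul] at h2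
  rw [← h1, ← (AnP.secE (X.koF b 1 0)).finrank_eq, X.Gam_koF, h2]

theorem finrank_HolF (X : AnP P n) (b : Basis (Fin n) F Ω[F⁄ℂ]) :
    finrank ℂ (HolF X.A) = finrank ℂ (kP P b).Sec := by
  rw [← (holE X.A).finrank_eq, finrank_HS X b]

theorem finrank_typH (X : AnP P n) (hn : Even n) (b : Basis (Fin n) F Ω[F⁄ℂ]) :
    finrank ℂ (typH (emb X) n 0) = finrank ℂ (kP P b).Sec :=
  (finrank_typ (emb X) X.PA hn fun _ => mem_typH (emb X)).trans (finrank_HS X b)

theorem finrank_typH' {m : ℕ} (X : AnP P m) (hn : Even n) (b : Basis (Fin n) F Ω[F⁄ℂ]) :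
    finrank ℂ (typH (emb X) n 0) = finrank ℂ (kP P b).Sec := by
  obtain ⟨Y⟩ := nonempty_AnP P b
  obtain rfl : m = n := (dim_eq X).symm.trans (dim_eq Y)
  exact finrank_typH X hn b

/-- **PG** -/
theorem pg_of (c1 : ∀ X : SV, BD ℂ X.F → HP X.P) (Lam : ∀ X : SV, AddSubgroup (HP X.P)) :
    (thOf (fun X => typH (em X.P)) c1 Lam).PG :=
  fun X k b => finrank_typH' (an X.P) (even_two_mul k) b

end Crest.Agent.X262.Pg58
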