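import Crest.Agent.X262.Kah.FibD
import Crest.Agent.X262.Frm.Dol

/-!
# X262 / Pg58 (helper58), file Om: the holomorphic volume form of `ℂⁿ`

* `Om n = dz₀ ⋯ dz_{n-1}`, `co n` its coefficient; `Ty n 0 = ℂ Om`;
* `pbC_Om` : `L^* Om = det L • Om`;  `dC_Om_iff` : `d (f Om) = 0 ↔ f` is holomorphic;
* `kap n ≠ 0` with `tpC (x * conj x) = |co x|² kap`.
-/

set_option autoImplicit false
set_option linter.unusedSectionVars false

open Module Complex Filter Topology
open scoped ComplexConjugate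

noncomputable section

namespace Crest.Agent.X262.Pg58

open Crest.Agent.R208.F Crest.Agent.R208.CW Crest.Agent.X262.Kah Crest.Agent.X262.Kah.Fib
open Crest.Agent.R275.Geo (Cn)

variable {n : ℕ} {x : V n}

variable (n) in
/-- the holomorphic indices -/
def lz : List (Ix n) := List.ofFn Sum.inl

variable (n) in
/-- `dz₀ ⋯ dz_{n-1}` -/
def Om : V n := (List.ofFn dz).prod

variable (n) in
/-- the coefficient of `Om` -/
def co : V n →ₗ[ℂ] ℂ := au ∘ₗ cl (lz n)

theorem Om_eq : Om n = mon (lz n) := by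
  rw [Om, mon, lz, List.map_ofFn]
  rfl

theorem lz_nodup : (lz n).Nodup := List.nodup_ofFn.2 Sum.inl_injective

theorem co_Om : co n (Om n) = 1 := by
  rw [co, Om_eq, LinearMap.comp_apply, cl_mon lz_nodup, au_one]

theorem Om_ne : Om n ≠ 0 := fun h => by
  have := co_Om (n := n)
  rw [h, map_zero] at this
  exact zero_ne_one this

theorem mem_lz {i : Ix n} : i ∈ lz n ↔ i.isLeft := by
  rw [lz, List.mem_ofFn]
  rcases i with a | a <;> simp

theorem Om_mem : Om n ∈ Ty n 0 := by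
  have h := mon_mem (lz n)
  rwa [List.countP_eq_length.2 fun i hi => mem_lz.1 hi, List.countP_eq_zero.2 fun i hi => by
    simpa using mem_lz.1 hi, lz, List.length_ofFn, ← lz, ← Om_eq] at h

theorem eq_lz {S : K n} (hp : tp S = n) (hq : tq S = 0) : S = (lz n).toFinset := by
  have h1 : S.toLeft = Finset.univ := by
    rw [← Finset.card_eq_iff_eq_univ, Fintype.card_fin]
    exact hp
  have h2 : S.toRight = ∅ := Finset.card_eq_zero.1 hq
  ext i
  rw [List.mem_toFinset, mem_lz]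
  rcases i with a | a
  · simp [← Finset.mem_toLeft, h1]
  · simp [← Finset.mem_toRight, h2]

theorem eq_co (hx : x ∈ Ty n 0) : x = co n x • Om n := by
  refine Ty.ind (P := fun x => x = co n x • Om n) (by simp) (fun x y hx hy => ?_)
    (fun z x hx => ?_) (fun S hp hq => ?_) hx
  · rw [map_add, add_smul, ← hx, ← hy]
  · rw [map_smul, smul_assoc, ← hx]
  · obtain ⟨s, hs, e⟩ := mon_eq_bas (lz_nodup (n := n))
    have e' : bas S = s • Om n := by
      rw [Om_eq, e, smul_smul, hs, one_smul, eq_lz hp hq]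
    rw [e', map_smul, co_Om, smul_eq_mul, mul_one]

theorem smul_Om_mem (c : ℂ) : c • Om n ∈ Ty n 0 := Submodule.smul_mem _ c Om_mem

theorem co_smul_Om (c : ℂ) : co n (c • Om n) = c := by
  rw [map_smul, co_Om, smul_eq_mul, mul_one]

/-- holomorphic covectors -/
def hv (n : ℕ) : (Fin n → ℂ) →ₗ[ℂ] V n := Fintype.linearCombination ℂ dz

theorem hv_apply (r : Fin n → ℂ) : hv n r = ∑ a, r a • dz a :=
  Fintype.linearCombination_apply _ _ _

theorem hv_sq (r : Fin n → ℂ) : hv n r * hv n r = 0 := by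
  have h : hv n r = cv (∑ a, r a • zc a) := by
    rw [hv_apply, cv_sum]
    exact Finset.sum_congr rfl fun a _ => (cv_smul _ _).symm
  rw [h, cv_sq]

theorem co_prod (r : Fin n → Fin n → ℂ) :
    co n (List.ofFn fun b => hv n (r b)).prod = (Matrix.of r).det := by
  let f : (Fin n → ℂ) [⋀^Fin n]→ₗ[ℂ] ℂ :=
    (co n ∘ₗ (ExteriorAlgebra.lift ℂ ⟨hv n, hv_sq⟩).toLinearMap).compAlternatingMap
      (ExteriorAlgebra.ιMulti ℂ n)
  have hf : ∀ r, f r = co n (List.ofFn fun b => hv n (r b)).prod := fun r => by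
    simp only [f, LinearMap.compAlternatingMap_apply, ExteriorAlgebra.ιMulti_apply,
      LinearMap.comp_apply, AlgHom.toLinearMap_apply, map_list_prod, List.map_ofFn,
      Function.comp_def, ExteriorAlgebra.lift_ι_apply]
  have h1 : f (Pi.basisFun ℂ (Fin n)) = 1 := by
    rw [hf, ← co_Om (n := n), Om]
    congr 3
    funext b
    simp [hv_apply, Pi.single_apply]
  rw [← hf, f.eq_smul_basis_det (Pi.basisFun ℂ (Fin n)), h1, one_smul, Pi.basisFun_det_apply]

theorem pbC_Om {L : Cn n →ₗ[ℝ] Cn n} (hL : ∀ v, L (I • v) = I • L v) :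
    pbC L (Om n) = (mat L).det • Om n := by
  rw [eq_co (Ty.pb_mem hL Om_mem)]
  congr 1
  rw [Om, map_list_prod, List.map_ofFn]
  refine Eq.trans ?_ (co_prod (mat L))
  congr 3
  funext b
  rw [Function.comp_apply, pbC_dz hL, hv_apply]
  rfl

theorem cv_mul_Om (l : Cn n →ₗ[ℝ] ℂ) : cv l * Om n = 0 ↔ ∀ a, pzb a l = 0 := by
  refine ⟨fun h a => ?_, fun h => ?_⟩
  · have h1 := izb_cv_mul a l (Om n)
    rw [h, map_zero, Ty.izb_eq_zero a Om_mem, mul_zero, sub_zero] at h1
    exact (smul_eq_zero.1 h1.symm).resolve_right Om_ne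
  · rw [cv_eq_sum, Finset.sum_mul]
    refine Finset.sum_eq_zero fun a _ => ?_
    rw [h, zero_smul, add_zero, smul_mul_assoc,
      Ty.eq_zero (Ty.mul (dz_mem a) Om_mem) (Or.inl (by omega)), smul_zero]

/-- the Cauchy-Riemann equations -/
theorem holo_iff {f : Cn n → ℂ} {z : Cn n} (hf : DifferentiableAt ℝ f z) :
    DifferentiableAt ℂ f z ↔
      ∀ a, pzb a ((fderiv ℝ f z : Cn n →L[ℝ] ℂ) : Cn n →ₗ[ℝ] ℂ) = 0 := by
  refine ⟨fun h a => ?_, fun h => ?_⟩
  · rw [h.fderiv_restrictScalars ℝ, pzb]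
    simp only [ContinuousLinearMap.coe_coe, ContinuousLinearMap.coe_restrictScalars', map_smul,
      smul_eq_mul]
    rw [← mul_assoc I, I_mul_I]
    ring
  · rw [differentiableAt_iff_restrictScalars ℝ hf]
    refine ⟨∑ a, pz a ((fderiv ℝ f z : Cn n →L[ℝ] ℂ) : Cn n →ₗ[ℝ] ℂ) •
      (EuclideanSpace.proj a : Cn n →L[ℂ] ℂ), ?_⟩
    ext v
    have h1 := congrArg (fun l : Cn n →ₗ[ℝ] ℂ => l v)
      (lin_eq_sum ((fderiv ℝ f z : Cn n →L[ℝ] ℂ) : Cn n →ₗ[ℝ] ℂ))
    simp only [h, zero_smul, add_zero, ContinuousLinearMap.coe_coe, LinearMap.sum_apply,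
      LinearMap.smul_apply, zc_apply] at h1
    rw [h1]
    simp

theorem dC_smul_const {f : Cn n → ℂ} {z : Cn n} (hf : DifferentiableAt ℝ f z) (c : V n) :
    dC (fun y => f y • c) z = cv ((fderiv ℝ f z : Cn n →L[ℝ] ℂ) : Cn n →ₗ[ℝ] ℂ) * c := by
  rw [Frm.dC_smul hf (differentiableAt_const c), ← Frm.dP_one (differentiableAt_const c),
    Frm.dP_const, smul_zero, add_zero, cv_eq_ioC]

theorem dC_Om_iff {f : Cn n → ℂ} {z : Cn n} (hf : DifferentiableAt ℝ f z) :
    dC (fun y => f y • Om n) z = 0 ↔ DifferentiableAt ℂ f z := by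
  rw [dC_smul_const hf, cv_mul_Om, holo_iff hf]

variable (n) in
/-- the top coefficient of `Om ∧ conj Om` -/
def kap : ℂ := tpC n (Om n * Cx.conj (Om n))

theorem tpC_mul_conj (hx : x ∈ Ty n 0) :
    tpC n (x * Cx.conj x) = (normSq (co n x) : ℂ) * kap n := by
  conv_lhs => rw [eq_co hx]
  rw [Fib.conj_smul, smul_mul_assoc, mul_smul_comm, map_smul, map_smul, smul_eq_mul, smul_eq_mul,
    ← mul_assoc, mul_conj, kap]

theorem kap_ne : kap n ≠ 0 := fun h => by
  refine Om_ne (n := n) (eq_zero_of_tpC fun y => ?_)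
  refine ind_Ty (P := fun y => tpC n (Om n * y) = 0) (by simp) (fun x y hx hy => ?_)
    (fun p q y hy => ?_) y
  · rw [mul_add, map_add, hx, hy, add_zero]
  · by_cases hpq : p = 0 ∧ q = n
    · obtain ⟨rfl, rfl⟩ := hpq
      have h1 : y = conj (co q (Cx.conj y)) • Cx.conj (Om q) := by
        rw [← Fib.conj_smul, ← eq_co (Ty.conj_mem hy)]
        exact Cx.ext rfl (neg_neg _).symm
      rw [h1, mul_smul_comm, map_smul, ← kap, h, smul_zero]
    · exact tpC_of_mem (Ty.mul Om_mem hy) (by omega)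

end Crest.Agent.X262.Pg58
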